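import Vale.Agent.N109W.Main

open MeasureTheory Vale.Agent.N109W

theorem Vale.Agent.Results.P109.A0WeakMixing.result :
    (∃ W : unitInterval ≃ᵐ unitInterval, WeakMixing volume W ∧ entropy volume W = 0 ∧
      (∀ (Y : Type) [MeasurableSpace Y] (ν : Measure Y) [IsProbabilityMeasure ν] (R : Y → Y),
        Ergodic R ν → Ergodic (Prod.map W R) (volume.prod ν)) ∧
      ∀ (X : Type) [MeasurableSpace X] (μ : Measure X) (T : X → X) (π : X → unitInterval),
        IsFactor π μ T volume W → ¬ HasModel μ T) ∧
    (∀ h : NNReal, ∃ T : unitInterval ≃ᵐ unitInterval, Ergodic T volume ∧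
      WeakMixing volume T ∧ entropy volume T = h ∧ ¬ HasModel volume T) ∧
    ∀ (Y : Type) [MeasurableSpace Y] [StandardBorelSpace Y] (ν : Measure Y)
      [IsProbabilityMeasure ν] (R : Y ≃ᵐ Y), WeakMixing ν R →
      ∃ (T : unitInterval ≃ᵐ unitInterval) (π : unitInterval → Y), WeakMixing volume T ∧
        IsFactor π volume T ν R ∧ entropy volume T = entropy ν R ∧ ¬ HasModel volume T :=
  ⟨universal, every, above⟩
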